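import Vale.Agent.P221.H72.Defs

/-! Row T: homotopy groups of a telescope. -/

open CategoryTheory MonoidalCategory Limits Pretriangulated
open Vale.Agent.P251.T Vale.Agent.P251.S Vale.Agent.P251.H Vale.Agent.P251.M
  Vale.Agent.P251.I

universe v u

set_option linter.unusedSectionVars false

namespace Vale.Agent.P221

variable {T : Type u} [Category.{v} T] [Preadditive T] [HasZeroObject T]
    [HasShift T ℤ] [∀ n : ℤ, (shiftFunctor T n).Additive] [Pretriangulated T] [IsTriangulated T]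
    [MonoidalCategory T] [SymmetricCategory T] [TensorTriangulated T] [MonoidalClosed T]
    [HasCoproducts.{0} T] [HasProducts.{0} T] [StableCat T]

theorem pi_surj {n : ℤ} {X Y C : T} {f : X ⟶ Y} {g : Y ⟶ C} {h : C ⟶ X⟦(1 : ℤ)⟧}
    (D : Triangle.mk f g h ∈ distTriang T) (hC : Above n C) {k : ℤ} (hk : n ≤ k)
    (y : (𝟙_ T)⟦k⟧ ⟶ Y) : ∃ x : (𝟙_ T)⟦k⟧ ⟶ X, x ≫ f = y := by
  obtain ⟨x, hx⟩ := Triangle.coyoneda_exact₂ _ D y (hC k hk _)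
  exact ⟨x, hx.symm⟩

theorem pi_inj {n : ℤ} {X Y C : T} {f : X ⟶ Y} {g : Y ⟶ C} {h : C ⟶ X⟦(1 : ℤ)⟧}
    (D : Triangle.mk f g h ∈ distTriang T) (hC : Above n C) {k : ℤ} (hk : n ≤ k + 1)
    (x : (𝟙_ T)⟦k⟧ ⟶ X) (hx : x ≫ f = 0) : x = 0 := by
  have h1 : (x⟦(1 : ℤ)⟧') ≫ (f⟦(1 : ℤ)⟧') = 0 := by
    rw [← Functor.map_comp, hx, Functor.map_zero]
  obtain ⟨z, hz⟩ := Triangle.coyoneda_exact₁ _ D (x⟦(1 : ℤ)⟧') h1
  let e : (𝟙_ T)⟦k + 1⟧ ≅ ((𝟙_ T)⟦k⟧)⟦(1 : ℤ)⟧ := (shiftFunctorAdd' T k 1 (k + 1) rfl).app (𝟙_ T)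
  have h2 : e.hom ≫ z = 0 := hC (k + 1) hk _
  have h3 : z = 0 := by
    rw [← cancel_epi e.hom, h2, comp_zero]
  have h4 : x⟦(1 : ℤ)⟧' = 0 := by
    refine hz.trans ?_
    rw [h3, zero_comp]
    rfl
  apply (shiftFunctor T (1 : ℤ)).map_injective
  rw [h4, Functor.map_zero]

section

variable {X C : ℕ → T} {f : ∀ n, X n ⟶ X (n + 1)} {g : ∀ n, X (n + 1) ⟶ C n}
    {h : ∀ n, C n ⟶ (X n)⟦(1 : ℤ)⟧} (D : ∀ n, Triangle.mk (f n) (g n) (h n) ∈ distTriang T)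
    {c d : ℤ} (hd : 0 < d) (hC : ∀ n : ℕ, Above (c - n * d) (C n))

include D hd hC

theorem stage_surj {k : ℤ} {m : ℕ} (hk : c - m * d ≤ k) (j : ℕ)
    (a : (𝟙_ T)⟦k⟧ ⟶ X (m + j)) : ∃ b : (𝟙_ T)⟦k⟧ ⟶ X m, b ≫ trT f m j = a := by
  induction j with
  | zero => exact ⟨a, Category.comp_id a⟩
  | succ j ih =>
    obtain ⟨x, hx⟩ := pi_surj (D (m + j)) (hC (m + j)) (k := k) (by
      push_cast
      nlinarith [Int.natCast_nonneg j]) a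
    obtain ⟨b, hb⟩ := ih x
    refine ⟨b, ?_⟩
    rw [trT_succ, ← Category.assoc, hb, hx]

theorem stage_inj {k : ℤ} {m : ℕ} (hk : c - m * d ≤ k + 1) (j : ℕ)
    (a : (𝟙_ T)⟦k⟧ ⟶ X m) (ha : a ≫ trT f m j = 0) : a = 0 := by
  induction j with
  | zero => rwa [trT_zero, Category.comp_id] at ha
  | succ j ih =>
    apply ih
    rw [trT_succ, ← Category.assoc] at ha
    refine pi_inj (D (m + j)) (hC (m + j)) (k := k) ?_ _ ha
    push_cast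
    nlinarith [Int.natCast_nonneg j]

theorem tel_stage (U : Tel f) {k : ℤ} {m : ℕ} (hk : c - m * d ≤ k) :
    Function.Bijective (fun x : (𝟙_ T)⟦k⟧ ⟶ X m => x ≫ U.ι m) := by
  constructor
  · intro x y hxy
    dsimp only at hxy
    rw [← sub_eq_zero] at hxy ⊢
    rw [← Preadditive.sub_comp] at hxy
    obtain ⟨j, hj⟩ := U.exists_eq_zero (Vale.Agent.P251.X.cpt_sphere k) _ hxy
    exact stage_inj D hd hC (by omega) j _ hj
  · intro y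
    obtain ⟨n, a, ha⟩ := U.exists_factor (Vale.Agent.P251.X.cpt_sphere k) y
    rcases le_total n m with hnm | hmn
    · refine ⟨a ≫ trTo f hnm, ?_⟩
      dsimp only
      rw [Category.assoc, U.trTo_ι, ha]
    · obtain ⟨j, rfl⟩ := Nat.exists_eq_add_of_le hmn
      obtain ⟨b, hb⟩ := stage_surj D hd hC hk j a
      refine ⟨b, ?_⟩
      dsimp only
      rw [← U.trT_ι m j, ← Category.assoc, hb, ha]

end

theorem tel_evIso {p : ℕ} {X C : ℕ → T} {f : ∀ n, X n ⟶ X (n + 1)} {g : ∀ n, X (n + 1) ⟶ C n}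
    {h : ∀ n, C n ⟶ (X n)⟦(1 : ℤ)⟧} (D : ∀ n, Triangle.mk (f n) (g n) (h n) ∈ distTriang T)
    {Z : T} {ι : ∀ n, X n ⟶ Z} (hZ : IsTel f ι) {c d : ℤ} (hd : 0 < d)
    (hC : ∀ n : ℕ, Above (c - n * d) (C n)) (hX : ∀ n, FT p (X n)) :
    EvIso (c + 1) (ι 0) ∧ FT p Z := by
  have key : ∀ (k : ℤ) (m : ℕ), c - m * d ≤ k →
      Function.Bijective (fun x : (𝟙_ T)⟦k⟧ ⟶ X m => x ≫ ι m) := fun k m hk =>
    tel_stage D hd hC hZ.tel hk
  refine ⟨fun k hk => key k 0 (by simp; omega), fun k => ?_⟩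
  have hk : c - ((c - k).toNat : ℕ) * d ≤ k := by
    have h1 : (c - k) ≤ ((c - k).toNat : ℤ) := Int.self_le_toNat _
    have h2 : (0 : ℤ) ≤ ((c - k).toNat : ℤ) := Int.natCast_nonneg _
    nlinarith
  have hb := key k _ hk
  obtain ⟨h1, h2⟩ := hX (c - k).toNat k
  refine ⟨Finite.of_surjective _ hb.2, fun y => ?_⟩
  obtain ⟨x, hx⟩ := hb.2 y
  obtain ⟨N, hN⟩ := h2 x
  refine ⟨N, ?_⟩
  rw [← hx]
  dsimp only
  rw [← Preadditive.zsmul_comp, hN, zero_comp]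

end Vale.Agent.P221
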